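import Vale.Agent.P098.Reg.Defs
import Vale.Agent.P098.Jet

/-!
The module boundaries of the regularity chain as propositions, so that the top theorem composes
from them.
-/

noncomputable section

namespace Vale.Agent.P098.Reg

open MeasureTheory Set Filter Topology
open scoped ContDiff

variable {d : ℕ}

/-- A test function vanishing outside a compact subset of `O`. -/
def TestOn (O : Set (Pt d)) (φ : Pt d → ℝ) : Prop :=
  ContDiff ℝ ∞ φ ∧ HasCompactSupport φ ∧ tsupport φ ⊆ O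

/-- Module A: mean value property of harmonic functions. -/
def MeanValue (d : ℕ) : Prop :=
  ∀ (f : Pt d → ℝ) (O : Set (Pt d)), IsOpen O → ContDiffOn ℝ ∞ f O →
    (∀ x ∈ O, ∑ i, pd i (pd i f) x = 0) → ∀ x r, 0 < r → Metric.closedBall x r ⊆ O →
      f x = ⨍ y in Metric.ball x r, f y

/-- Module A: Weyl's lemma. -/
def Weyl (d : ℕ) : Prop :=
  ∀ (f : Pt d → ℝ) (O : Set (Pt d)), IsOpen O → LocallyIntegrableOn f O →
    (∀ φ, TestOn O φ → ∫ x, f x * ∑ i, pd i (pd i φ) x = 0) →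
    ∃ h : Pt d → ℝ, ContDiffOn ℝ ∞ h O ∧ (∀ x ∈ O, ∑ i, pd i (pd i h) x = 0) ∧
      f =ᵐ[volume.restrict O] h

/-- Module B: a homogeneous global minimiser agrees a.e. with a homogeneous Lipschitz minimiser. -/
def FirstReg (d : ℕ) : Prop :=
  ∀ u : Pt d → ℝ, IsGlobalMin u → OneHom u → ∃ w : Pt d → ℝ, u =ᵐ[volume] w ∧ LMin w ∧ Homog w

/-- Module B: basic properties of Lipschitz minimisers. -/
structure Basics (d : ℕ) : Prop where
  smooth : ∀ u : Pt d → ℝ, LMin u → ContDiffOn ℝ ∞ u {x | 0 < u x}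
  harmonic : ∀ u : Pt d → ℝ, LMin u → ∀ x, 0 < u x → ∑ i, pd i (pd i u) x = 0
  lip : ∃ K, ∀ u : Pt d → ℝ, LMin u → (∃ x, u x = 0) → LipschitzWith K u
  nondeg : ∃ c > 0, ∀ u : Pt d → ℝ, LMin u → ∀ (x : Pt d) (r : ℝ), 0 < r →
    (∀ y ∈ Metric.ball x r, u y ≤ c * r) → ∀ y ∈ Metric.ball x (r / 2), u y = 0
  zero_pos : ∀ u : Pt d → ℝ, LMin u → ∀ (x : Pt d) (r : ℝ), 0 < r → u x = 0 →
    volume ({y | u y = 0} ∩ Metric.ball x r) ≠ 0

/-- Module C: limits of minimisers are minimisers, with a.e. convergence of gradients and positivity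
sets (so of all energies, by dominated convergence). -/
def Compactness (d : ℕ) : Prop :=
  ∀ u : ℕ → Pt d → ℝ, (∀ k, LMin (u k)) → (∀ k, u k 0 = 0) →
    ∃ (ψ : ℕ → ℕ) (w : Pt d → ℝ), StrictMono ψ ∧ LMin w ∧ w 0 = 0 ∧
      TendstoLocallyUniformly (fun k => u (ψ k)) w atTop ∧
      (∀ᵐ x, ∀ i, Tendsto (fun k => pd i (u (ψ k)) x) atTop (𝓝 (pd i w x))) ∧
      ∀ᵐ x, Tendsto (fun k => {y | 0 < u (ψ k) y}.indicator (fun _ => (1 : ℝ)) x) atTop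
        (𝓝 ({y | 0 < w y}.indicator (fun _ => (1 : ℝ)) x))

/-- Module C: at every scale a minimiser that vanishes at the origin has a homogeneous blow-up. -/
def HomogBlowUp (d : ℕ) : Prop :=
  ∀ u : Pt d → ℝ, LMin u → ∀ x0 : Pt d, u x0 = 0 → ∀ r : ℕ → ℝ, (∀ k, 0 < r k) →
    Tendsto r atTop (𝓝 0) → ∃ (ψ : ℕ → ℕ) (w : Pt d → ℝ), StrictMono ψ ∧ LMin w ∧ Homog w ∧
      TendstoLocallyUniformly (fun k y => u (x0 + r (ψ k) • y) / r (ψ k)) w atTop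

/-- Module C: the dimensions handled by hand. -/
def LowDim : Prop := FlatDim 1 ∧ FlatDim 2

/-- Module C: dimension reduction; free boundary points other than the vertex are flat points. -/
def DimRed (d : ℕ) : Prop :=
  1 ≤ d → FlatDim d → ∀ u : Pt (d + 1) → ℝ, LMin u → Homog u → ∀ x0 ∈ free u, x0 ≠ 0 →
    ∀ ε > 0, ∃ r > 0, ∃ ν : Pt (d + 1), ‖ν‖ = 1 ∧ Trapped u x0 r ε ν

/-- Module D: flatness implies `C^{1,α}` (unit scale). -/
def EpsReg (d : ℕ) : Prop :=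
  ∃ α : ℝ, 0 < α ∧ α < 1 ∧ ∃ ε0 > 0, ∃ C > 0, ∀ (u : Pt d → ℝ) (ν : Pt d) (ε : ℝ),
    LMin u → ‖ν‖ = 1 → 0 < ε → ε ≤ ε0 → Trapped u 0 1 ε ν →
    (∀ x ∈ free u, x ∈ Metric.ball (0 : Pt d) (1 / 2) → ∃ νx : Pt d, ‖νx‖ = 1 ∧
      ∀ r : ℝ, 0 < r → r ≤ 1 / 4 → Trapped u x r (C * ε * r ^ α) νx) ∧
    ∀ x ∈ Metric.ball (0 : Pt d) (1 / 4), 0 < u x →
      ‖fderiv ℝ u x - innerSL ℝ ν‖ ≤ C * ε ∧
      ∀ y ∈ Metric.ball (0 : Pt d) (1 / 4), 0 < u y →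
        ‖fderiv ℝ u x - fderiv ℝ u y‖ ≤ C * ε * dist x y ^ α

/-- The free boundary is `C^{1,α}` near each of its points other than the origin. -/
def C1Boundary (u : Pt d → ℝ) : Prop :=
  ∀ x0 ∈ free u, x0 ≠ 0 → ∃ r > 0, ∃ α : ℝ, 0 < α ∧ α < 1 ∧ ∃ C : ℝ, ∃ ν : Pt d, ‖ν‖ = 1 ∧
    (∀ x ∈ free u, x ∈ Metric.ball x0 r → ∃ νx : Pt d, ‖νx‖ = 1 ∧
      ∀ s : ℝ, 0 < s → s ≤ r → Trapped u x s (C * s ^ α) νx) ∧
    ∀ x ∈ Metric.ball x0 r, 0 < u x →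
      ‖fderiv ℝ u x - innerSL ℝ ν‖ ≤ 1 / 4 ∧
      ∀ y ∈ Metric.ball x0 r, 0 < u y → ‖fderiv ℝ u x - fderiv ℝ u y‖ ≤ C * dist x y ^ α

/-- A `C^8` extension across the free boundary, as the bridge consumes it. -/
def HasExtension (u : Pt d → ℝ) : Prop :=
  ∃ (U : Pt d → ℝ) (N : Set (Pt d)), IsOpen N ∧
    (∀ x ∈ closure {x | 0 < u x}, x ≠ 0 → x ∈ N) ∧ ContDiffOn ℝ 8 U N ∧
    (∀ x, 0 < u x → U x = u x) ∧ ∀ x ∈ free u, x ≠ 0 → gradSq U x = 1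

/-- Module E: higher regularity. -/
def HighReg (d : ℕ) : Prop :=
  ∀ u : Pt d → ℝ, LMin u → Homog u → C1Boundary u → HasExtension u

/-- The bridge: a certificate makes every extendable homogeneous minimiser flat. -/
def CertFlat (d : ℕ) : Prop :=
  Cert d → ∀ u : Pt d → ℝ, LMin u → Homog u → HasExtension u → IsFlat u

/-- The target: every one-homogeneous global minimiser in dimension `d` is flat. -/
def Target (d : ℕ) : Prop := ∀ u : Pt d → ℝ, IsGlobalMin u → OneHom u → IsFlatAE u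

end Vale.Agent.P098.Reg
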