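import Vale.Agent.P098.Reg.Defs

/-!
Translation and scaling of Lipschitz minimisers: `y ↦ u (x0 + r y) / r`.
-/

noncomputable section

namespace Vale.Agent.P098.Reg

open MeasureTheory Set Filter Topology Metric
open scoped ContDiff NNReal

variable {d : ℕ}

/-- The rescaling `y ↦ u (x0 + r y) / r`. -/
def rescale (u : Pt d → ℝ) (x0 : Pt d) (r : ℝ) (y : Pt d) : ℝ := u (x0 + r • y) / r

variable {u : Pt d → ℝ} {x0 : Pt d} {r : ℝ}

theorem rescale_pos_iff (hr : 0 < r) {y : Pt d} : 0 < rescale u x0 r y ↔ 0 < u (x0 + r • y) := by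
  simp [rescale, hr]

theorem fderiv_rescale (hr : 0 < r) (y : Pt d) :
    fderiv ℝ (rescale u x0 r) y = fderiv ℝ u (x0 + r • y) := by
  have h1 : rescale u x0 r = r⁻¹ • fun z => (fun w => u (x0 + w)) (r • z) := by
    funext z; simp [rescale, div_eq_inv_mul]
  have : Invertible r⁻¹ := invertibleOfNonzero (inv_ne_zero hr.ne')
  rw [h1, fderiv_const_smul_of_invertible, fderiv_comp_smul (f := fun w => u (x0 + w)) r,
    fderiv_comp_add_left, inv_smul_smul₀ hr.ne']

theorem pd_rescale (hr : 0 < r) (i : Fin d) (y : Pt d) :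
    pd i (rescale u x0 r) y = pd i u (x0 + r • y) := by
  simp only [pd, fderiv_rescale hr]

theorem energy_rescale (hr : 0 < r) (c : Pt d) (R : ℝ) :
    energy (rescale u x0 r) c R = |(r ^ d)⁻¹| * energy u (x0 + r • c) (r * R) := by
  let f : Pt d → ℝ := fun x => (ball (x0 + r • c) (r * R)).indicator
    (fun z => gradSq u z + {y | 0 < u y}.indicator (fun _ => (1 : ℝ)) z) (x0 + x)
  have e : (ball c R).indicator (fun x => gradSq (rescale u x0 r) x +
      {y | 0 < rescale u x0 r y}.indicator (fun _ => (1 : ℝ)) x) = fun x => f (r • x) := by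
    funext x
    have hmem : x0 + r • x ∈ ball (x0 + r • c) (r * R) ↔ x ∈ ball c R := by
      rw [mem_ball, mem_ball, dist_add_left, dist_smul₀, Real.norm_eq_abs, abs_of_pos hr,
        mul_lt_mul_iff_right₀ hr]
    simp only [f]
    by_cases hx : x ∈ ball c R
    · rw [indicator_of_mem hx, indicator_of_mem (hmem.2 hx)]
      simp [gradSq, pd_rescale hr, indicator, rescale_pos_iff hr]
    · rw [indicator_of_notMem hx, indicator_of_notMem (mt hmem.1 hx)]
  unfold energy
  rw [← integral_indicator measurableSet_ball, e, Measure.integral_comp_smul volume f r,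
    ← integral_indicator measurableSet_ball]
  simp only [f, finrank_euclideanSpace_fin, smul_eq_mul]
  congr 1
  exact integral_add_left_eq_self _ x0

theorem LMin.rescale (h : LMin u) (x0 : Pt d) (hr : 0 < r) : LMin (Reg.rescale u x0 r) := by
  obtain ⟨K, hK⟩ := h.lip
  refine ⟨⟨K, LipschitzWith.of_dist_le_mul fun x y => ?_⟩, fun y => div_nonneg (h.nonneg _) hr.le,
    fun c R v hv hv0 S hS hSb hvu => ?_⟩
  · rw [Real.dist_eq, Reg.rescale, Reg.rescale, ← sub_div, abs_div, abs_of_pos hr, div_le_iff₀ hr,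
      ← Real.dist_eq]
    refine (hK.dist_le_mul _ _).trans ?_
    rw [dist_add_left, dist_smul₀, Real.norm_eq_abs, abs_of_pos hr]
    exact le_of_eq (by ring)
  · obtain ⟨L, hL⟩ := hv
    let V : Pt d → ℝ := fun x => r * v (r⁻¹ • (x - x0))
    have hV : ∃ L, LipschitzWith L V := ⟨L, LipschitzWith.of_dist_le_mul fun x y => by
      simp only [V, Real.dist_eq, ← mul_sub, abs_mul, abs_of_pos hr]
      have := mul_le_mul_of_nonneg_left (hL.dist_le_mul (r⁻¹ • (x - x0)) (r⁻¹ • (y - x0))) hr.le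
      rw [dist_smul₀, dist_sub_right, norm_inv, Real.norm_eq_abs, abs_of_pos hr, Real.dist_eq,
        show r * ((L : ℝ) * (r⁻¹ * dist x y)) = r * r⁻¹ * ((L : ℝ) * dist x y) by ring,
        mul_inv_cancel₀ hr.ne', one_mul] at this
      exact this⟩
    have hS' : IsCompact ((fun y => x0 + r • y) '' S) := hS.image (by fun_prop)
    have hsub : (fun y => x0 + r • y) '' S ⊆ ball (x0 + r • c) (r * R) := by
      rintro _ ⟨y, hy, rfl⟩
      rw [mem_ball, dist_add_left, dist_smul₀, Real.norm_eq_abs, abs_of_pos hr]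
      exact mul_lt_mul_of_pos_left (hSb hy) hr
    have hout : ∀ x, x ∉ (fun y => x0 + r • y) '' S → V x = u x := fun x hx => by
      have h1 : r⁻¹ • (x - x0) ∉ S := fun hm => hx ⟨_, hm, show x0 + r • r⁻¹ • (x - x0) = x by rw [smul_inv_smul₀ hr.ne']; abel⟩
      simp only [V, hvu _ h1, Reg.rescale, smul_inv_smul₀ hr.ne', add_sub_cancel]
      field_simp
    have hle := h.le_energy (x0 + r • c) (r * R) V hV (fun x => mul_nonneg hr.le (hv0 _)) _ hS' hsub
      hout
    have e : Reg.rescale V x0 r = v := by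
      funext y
      simp only [Reg.rescale, V, add_sub_cancel_left, inv_smul_smul₀ hr.ne']
      field_simp
    rw [← e, energy_rescale hr, energy_rescale hr]
    exact mul_le_mul_of_nonneg_left hle (abs_nonneg _)

theorem rescale_rescale (hr : 0 < r) (x1 : Pt d) (s : ℝ) :
    rescale (rescale u x0 r) x1 s = rescale u (x0 + r • x1) (r * s) := by
  funext y
  simp only [rescale, smul_add, smul_smul, add_assoc, div_div]

theorem mem_free_rescale (hr : 0 < r) {y : Pt d} :
    y ∈ free (rescale u x0 r) ↔ x0 + r • y ∈ free u := by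
  let Φ : Pt d ≃ₜ Pt d := (Homeomorph.smulOfNeZero r hr.ne').trans (Homeomorph.addLeft x0)
  have e : {z | 0 < rescale u x0 r z} = Φ ⁻¹' {z | 0 < u z} := by
    ext z; simp [Φ, rescale_pos_iff hr]
  simp only [free, e, ← Φ.preimage_frontier]
  simp [Φ]

theorem trapped_rescale (hr : 0 < r) {c ν : Pt d} {s ε : ℝ} :
    Trapped (rescale u x0 r) c s ε ν ↔ Trapped u (x0 + r • c) (r * s) ε ν := by
  have key : ∀ y : Pt d, (∑ i, ((x0 + r • y) i - (x0 + r • c) i) * ν i) =
      r * ∑ i, (y i - c i) * ν i := fun y => by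
    rw [Finset.mul_sum]
    exact Finset.sum_congr rfl fun i _ => by simp; ring
  have hb : ∀ y : Pt d, x0 + r • y ∈ ball (x0 + r • c) (r * s) ↔ y ∈ ball c s := fun y => by
    rw [mem_ball, mem_ball, dist_add_left, dist_smul₀, Real.norm_eq_abs, abs_of_pos hr,
      mul_lt_mul_iff_right₀ hr]
  have hiff : ∀ y : Pt d,
      (max (r * (∑ i, (y i - c i) * ν i) - ε * (r * s)) 0 ≤ u (x0 + r • y) ∧
        u (x0 + r • y) ≤ max (r * (∑ i, (y i - c i) * ν i) + ε * (r * s)) 0) ↔
      (max ((∑ i, (y i - c i) * ν i) - ε * s) 0 ≤ rescale u x0 r y ∧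
        rescale u x0 r y ≤ max ((∑ i, (y i - c i) * ν i) + ε * s) 0) := fun y => by
    rw [rescale, le_div_iff₀ hr, div_le_iff₀ hr, max_mul_of_nonneg _ _ hr.le,
      max_mul_of_nonneg _ _ hr.le, zero_mul]
    ring_nf
  constructor
  · intro h z hz
    obtain ⟨y, rfl⟩ : ∃ y, z = x0 + r • y :=
      ⟨r⁻¹ • (z - x0), by rw [smul_inv_smul₀ hr.ne']; abel⟩
    rw [key]
    exact (hiff y).2 (h y ((hb y).1 hz))
  · intro h y hy
    have := h _ ((hb y).2 hy)
    rw [key] at this
    exact (hiff y).1 this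

end Vale.Agent.P098.Reg
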