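import Vale.Agent.P098.Final
import Vale.Agent.P098.Reg.Iface

/-!
The bridge proposition: a certificate makes every extendable homogeneous minimiser flat.
-/

noncomputable section

namespace Vale.Agent.P098.Reg

open MeasureTheory Set Filter Topology
open scoped ContDiff

variable {d : ℕ}

theorem LMin.lipMin {u : Pt d → ℝ} (hu : LMin u) : LipMin u :=
  fun c R v hv hv0 S hS hSsub heq =>
    hu.le_energy c R v hv hv0 S hS (hSsub.trans sdiff_subset) heq

/-- From dimension two on. -/
theorem certFlat_of_two_le (hd : 2 ≤ d) (hB : Basics d) : CertFlat d := by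
  intro Γ u hu hh hext
  obtain ⟨U, N, hN, hcl, hs, he, h1⟩ := hext
  obtain ⟨K, hK⟩ := hu.lip
  have hopen : IsOpen {x | 0 < u x} := isOpen_lt continuous_const hK.continuous
  have hl : ∀ x, 0 < u x → ∑ i, pd i (pd i U) x = 0 := by
    intro x hx
    rw [← hB.harmonic u hu x hx]
    refine Finset.sum_congr rfl fun i _ => pd_congr ?_
    filter_upwards [hopen.mem_nhds hx] with y hy
    exact pd_congr (by filter_upwards [hopen.mem_nhds hy] with z hz using he z hz)
  rcases flat_of_cert hd Γ u U N hK.continuous hu.nonneg hh hu.lipMin hN hcl hs he hl h1 with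
    h | ⟨e, he', h⟩
  · exact Or.inl h
  · exact Or.inr ⟨e, he', funext h⟩

/-- Every dimension. -/
theorem certFlat (hlow : LowDim) (hB : ∀ d, Basics d) (d : ℕ) : CertFlat d := by
  match d with
  | 0 =>
    intro _ u _ hh _
    refine Or.inl (funext fun x => ?_)
    have h := hh 2 two_pos x
    rw [Subsingleton.elim ((2 : ℝ) • x) x] at h
    show u x = 0
    linarith
  | 1 => exact fun _ u hu hh _ => hlow.1 u hu hh
  | d + 2 => exact certFlat_of_two_le (by omega) (hB _)

end Vale.Agent.P098.Reg
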