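import Vale.Agent.P098.Cone

/-!
The problem's definitions (weak gradient, Bernoulli energy, global minimiser, one-homogeneity, flat
solutions) and the pointwise class of Lipschitz minimisers that the regularity theory works with.
-/

noncomputable section

namespace Vale.Agent.P098.Reg

open MeasureTheory Set Filter Topology
open scoped ContDiff

variable {d : ℕ}

/-- Euclidean space. -/
abbrev Pt (d : ℕ) : Type := EuclideanSpace ℝ (Fin d)

/-- `u` is in `H1` on every ball and `G` is its weak gradient. -/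
def WeakGrad (u : Pt d → ℝ) (G : Pt d → Pt d) : Prop :=
  (∀ R : ℝ, MemLp u 2 (volume.restrict (Metric.ball 0 R)) ∧
      MemLp G 2 (volume.restrict (Metric.ball 0 R))) ∧
    ∀ φ : Pt d → ℝ, ContDiff ℝ ∞ φ → HasCompactSupport φ → ∀ i : Fin d,
      ∫ x, u x * pd i φ x = -∫ x, G x i * φ x

/-- The energy `∫_B (|∇u|² + 1_{u>0})` with weak gradient `G`. -/
def bernoulli (u : Pt d → ℝ) (G : Pt d → Pt d) (c : Pt d) (R : ℝ) : ℝ :=
  ∫ x in Metric.ball c R, (‖G x‖ ^ 2 + {y | 0 < u y}.indicator (fun _ => (1 : ℝ)) x)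

/-- A global minimiser: nonnegative, locally `H1`, and of least energy on every ball among
nonnegative locally `H1` functions that agree with it outside a compact subset of the ball. -/
def IsGlobalMin (u : Pt d → ℝ) : Prop :=
  (∀ᵐ x, 0 ≤ u x) ∧ ∃ G : Pt d → Pt d, WeakGrad u G ∧
    ∀ (c : Pt d) (R : ℝ) (v : Pt d → ℝ) (H : Pt d → Pt d), WeakGrad v H → (∀ᵐ x, 0 ≤ v x) →
      ∀ S : Set (Pt d), IsCompact S → S ⊆ Metric.ball c R → (∀ᵐ x, x ∉ S → v x = u x) →
        bernoulli u G c R ≤ bernoulli v H c R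

/-- One-homogeneous almost everywhere, for every positive factor. -/
def OneHom (u : Pt d → ℝ) : Prop := ∀ r : ℝ, 0 < r → ∀ᵐ x, u (r • x) = r * u x

/-- The flat solution `(x.e)_+`. -/
def hp (e : Pt d) (x : Pt d) : ℝ := max (∑ i, x i * e i) 0

/-- Almost everywhere zero or a flat solution. -/
def IsFlatAE (u : Pt d → ℝ) : Prop :=
  u =ᵐ[volume] 0 ∨ ∃ e : Pt d, ‖e‖ = 1 ∧ u =ᵐ[volume] hp e

/-- A Lipschitz minimiser: nonnegative everywhere, of least energy among nonnegative Lipschitz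
functions that differ from it only on a compact subset of the ball. -/
structure LMin (u : Pt d → ℝ) : Prop where
  lip : ∃ K, LipschitzWith K u
  nonneg : ∀ x, 0 ≤ u x
  le_energy : ∀ (c : Pt d) (R : ℝ) (v : Pt d → ℝ), (∃ K, LipschitzWith K v) → (∀ x, 0 ≤ v x) →
    ∀ S : Set (Pt d), IsCompact S → S ⊆ Metric.ball c R → (∀ x, x ∉ S → v x = u x) →
      energy u c R ≤ energy v c R

/-- One-homogeneous everywhere. -/
def Homog (u : Pt d → ℝ) : Prop := ∀ r : ℝ, 0 < r → ∀ x, u (r • x) = r * u x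

/-- Everywhere zero or a flat solution. -/
def IsFlat (u : Pt d → ℝ) : Prop := u = 0 ∨ ∃ e : Pt d, ‖e‖ = 1 ∧ u = hp e

/-- Every homogeneous Lipschitz minimiser in dimension `d` is flat. -/
def FlatDim (d : ℕ) : Prop := ∀ u : Pt d → ℝ, LMin u → Homog u → IsFlat u

/-- The free boundary. -/
def free (u : Pt d → ℝ) : Set (Pt d) := frontier {x | 0 < u x}

/-- `ε`-flat in direction `ν` on the ball of centre `c` and radius `r`. -/
def Trapped (u : Pt d → ℝ) (c : Pt d) (r ε : ℝ) (ν : Pt d) : Prop :=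
  ∀ y ∈ Metric.ball c r, max ((∑ i, (y i - c i) * ν i) - ε * r) 0 ≤ u y ∧
    u y ≤ max ((∑ i, (y i - c i) * ν i) + ε * r) 0

end Vale.Agent.P098.Reg
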