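import Vale.Agent.P098.Reg.Top
import Vale.Agent.P098.Reg.Bridge
import Vale.Agent.P098.Reg.AC.Basics
import Vale.Agent.P098.Reg.AC.FirstReg
import Vale.Agent.P098.Reg.Blow.Compact
import Vale.Agent.P098.Reg.Blow.HomogLimit
import Vale.Agent.P098.Reg.Blow.LowDim
import Vale.Agent.P098.Reg.Blow.Reduce
import Vale.Agent.P098.Reg.Eps.EpsReg

/-!
The regularity chain composed: everything except higher regularity (module E) and the certificates.
-/

noncomputable section

namespace Vale.Agent.P098.Reg

/-- Higher regularity and certificates in dimensions `3 ≤ d ≤ N` give the answer up to `N`. -/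
theorem target_of_high (N : ℕ) (hE : ∀ d, HighReg d)
    (hF : ∀ d, 3 ≤ d → d ≤ N → Nonempty (Cert d)) : ∀ d, 1 ≤ d → d ≤ N → Target d :=
  target_of N (fun d hd => have : NeZero d := ⟨(Nat.pos_iff_ne_zero.1 hd)⟩; firstReg d) lowDim
    (fun _ => dimRed (basics _) (homogBlowUp (basics _) (compactness (basics _))))
    (fun d => Eps.epsReg (basics d)) hE (certFlat lowDim basics) hF

end Vale.Agent.P098.Reg
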