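import Vale.Agent.P098.Reg.AC.FirstReg

/-! Sanity checks on the definitions under the statement: the flat solutions and zero belong to the
classes that the statement quantifies over. -/

noncomputable section

namespace Vale.Agent.P098.Reg

open MeasureTheory Set Filter Topology Metric
open scoped ContDiff

variable {d : ℕ}

/-- A Lipschitz function is locally `H1` with its gradient. -/
theorem weakGrad_of_lip {v : Pt d → ℝ} {L : NNReal} (h : LipschitzWith L v) :
    WeakGrad v (AC.grad v) := by
  refine ⟨fun R => ⟨?_, AC.memLp_grad h 0 R⟩, fun φ hφ hs i => (AC.weakPd_lip h i).ibp φ hφ hs⟩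
  haveI : IsFiniteMeasure (volume.restrict (ball (0 : Pt d) R)) :=
    isFiniteMeasure_restrict.2 measure_ball_lt_top.ne
  obtain ⟨B, hB⟩ := (isCompact_closedBall (0 : Pt d) R).exists_bound_of_continuousOn
    h.continuous.continuousOn
  exact MemLp.of_bound h.continuous.aestronglyMeasurable B
    ((ae_restrict_iff' measurableSet_ball).2
      (Eventually.of_forall fun x hx => hB x (ball_subset_closedBall hx)))

/-- The flat solutions are nonnegative, one-homogeneous and locally `H1`. -/
theorem hp_classes (e : Pt d) :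
    (∀ x, 0 ≤ hp e x) ∧ OneHom (hp e) ∧ WeakGrad (hp e) (AC.grad (hp e)) := by
  refine ⟨fun x => le_max_right _ _, fun r hr => Eventually.of_forall fun x => ?_, ?_⟩
  · simp only [hp, PiLp.smul_apply, smul_eq_mul]
    rw [show ∑ i, r * x i * e i = r * ∑ i, x i * e i by rw [Finset.mul_sum]; simp [mul_assoc],
      mul_max_of_nonneg _ _ hr.le, mul_zero]
  · have hl : LipschitzWith ‖e‖₊ (hp e) := by
      have : hp e = (fun t : ℝ => max t 0) ∘ innerSL ℝ e := by
        funext x
        simp [hp, PiLp.inner_apply, mul_comm]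
      rw [this, show ‖e‖₊ = 1 * ‖innerSL ℝ e‖₊ by rw [one_mul]; ext; simp]
      exact (LipschitzWith.id.max_const 0).comp (innerSL ℝ e).lipschitz
    exact weakGrad_of_lip hl

/-- Zero is a one-homogeneous global minimiser. -/
theorem zero_globalMin : IsGlobalMin (0 : Pt d → ℝ) ∧ OneHom (0 : Pt d → ℝ) := by
  refine ⟨⟨Eventually.of_forall fun _ => le_rfl, 0,
    ⟨fun R => ⟨MemLp.zero, MemLp.zero⟩, fun φ _ _ i => by simp⟩, fun c R v H _ _ S _ _ _ => ?_⟩,
    fun r _ => Eventually.of_forall fun x => by simp⟩
  have h0 : bernoulli (0 : Pt d → ℝ) (0 : Pt d → Pt d) c R = 0 := by simp [bernoulli]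
  rw [h0]
  exact integral_nonneg fun x =>
    add_nonneg (sq_nonneg _) (indicator_nonneg (fun _ _ => zero_le_one) _)

end Vale.Agent.P098.Reg
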