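import Vale.Agent.P098.Reg.Audit

/-! The flat solutions are global minimisers in the sense of the statement (calibration). -/

noncomputable section

namespace Vale.Agent.P098.Reg

open MeasureTheory Set Filter Topology Metric AC
open scoped ContDiff

variable {d : ℕ}

theorem hp_eq (e : Pt d) : hp e = fun x => max (innerSL ℝ e x) 0 := by
  funext x
  simp [hp, PiLp.inner_apply, mul_comm]

theorem grad_hp (e : Pt d) (he : ‖e‖ = 1) :
    ∀ᵐ x, AC.grad (hp e) x = {y | 0 < hp e y}.indicator (fun _ => e) x := by
  obtain ⟨P, hP⟩ : ∃ P : Submodule ℝ (Pt d), P = LinearMap.ker (innerSL ℝ e).toLinearMap := ⟨_, rfl⟩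
  have hnull : volume (P : Set (Pt d)) = 0 := by
    refine Measure.addHaar_submodule volume P fun htop => ?_
    have : e ∈ P := htop ▸ Submodule.mem_top
    rw [hP, LinearMap.mem_ker] at this
    simp [he] at this
  filter_upwards [compl_mem_ae_iff.2 hnull] with x hx
  have hx0 : innerSL ℝ e x ≠ 0 := fun h => hx (by rw [hP]; exact h)
  have hc : Continuous (innerSL ℝ e) := (innerSL ℝ e).continuous
  ext i
  rw [grad_apply, pd, hp_eq]
  rcases lt_or_gt_of_ne hx0 with h | h
  · have : (fun y => max (innerSL ℝ e y) 0) =ᶠ[𝓝 x] fun _ => (0 : ℝ) :=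
      (hc.continuousAt.eventually_lt continuousAt_const h).mono fun y hy => max_eq_right hy.le
    have hx' : x ∉ {y | 0 < max (innerSL ℝ e y) 0} := fun hm => by
      change 0 < max (innerSL ℝ e x) 0 at hm
      rw [max_eq_right h.le] at hm
      exact lt_irrefl _ hm
    beta_reduce
    rw [this.fderiv_eq, Set.indicator_of_notMem hx']
    simp
  · have : (fun y => max (innerSL ℝ e y) 0) =ᶠ[𝓝 x] innerSL ℝ e :=
      (continuousAt_const.eventually_lt hc.continuousAt h).mono fun y hy => max_eq_left hy.le
    beta_reduce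
    rw [this.fderiv_eq, (innerSL ℝ e).fderiv,
      Set.indicator_of_mem (show x ∈ {y | 0 < max (innerSL ℝ e y) 0} from lt_max_of_lt_left h)]
    simp [PiLp.inner_apply]

/-- **Calibration:** a flat solution is a global minimiser. -/
theorem hp_globalMin (e : Pt d) (he : ‖e‖ = 1) : IsGlobalMin (hp e) := by
  obtain ⟨h0, -, hW⟩ := hp_classes e
  refine ⟨Eventually.of_forall h0, _, hW, fun c R v H hV hv0 S hS hSB hvu => ?_⟩
  obtain ⟨u, hu⟩ : ∃ u, u = hp e := ⟨_, rfl⟩
  rw [← hu] at hW h0 hvu ⊢
  obtain ⟨G, hG⟩ : ∃ G, G = AC.grad u := ⟨_, rfl⟩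
  rw [← hG] at hW ⊢
  have hGe : ∀ᵐ x, G x = {y | 0 < u y}.indicator (fun _ => e) x := by
    rw [hG, hu]; exact grad_hp e he
  obtain ⟨m, hm⟩ : ∃ m, m = {y | 0 < u y}.indicator (fun _ => (1 : ℝ)) := ⟨_, rfl⟩
  have huc : Continuous u := by
    rw [hu, hp_eq]; exact (innerSL ℝ e).continuous.max continuous_const
  have hmm : Measurable m := hm ▸ measurable_const.indicator (huc.measurable measurableSet_Ioi)
  have hvae : AEStronglyMeasurable v := (WeakGrad.aesm hV).1
  have hee : ∑ i, e i ^ 2 = 1 := by
    rw [← one_pow 2, ← he, EuclideanSpace.norm_sq_eq]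
    simp
  have hBne : volume (ball c R) ≠ ⊤ := measure_ball_lt_top.ne
  haveI : IsFiniteMeasure (volume.restrict (ball c R)) := isFiniteMeasure_restrict.2 hBne
  let b : ContDiffBump c := ⟨|R| + 1, |R| + 2, by positivity, by linarith⟩
  have hbB : ∀ x ∈ ball c R, (b : Pt d → ℝ) x = 1 := fun x hx =>
    b.one_of_mem_closedBall (by
      rw [mem_closedBall]; rw [mem_ball] at hx
      exact hx.le.trans ((le_abs_self R).trans (by simp [b])))
  -- the two gradients agree off S
  have hHG : ∀ i : Fin d, ∀ᵐ x, x ∈ Sᶜ → H x i - G x i = 0 := fun i => by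
    refine hS.isClosed.isOpen_compl.ae_eq_zero_of_integral_contDiff_smul_eq_zero
      (((WeakGrad.wpd hV i).locg.sub (WeakGrad.wpd hW i).locg).locallyIntegrableOn _)
      fun g hg hgs hgO => ?_
    have e1 := (WeakGrad.wpd hV i).ibp g hg hgs
    have e2 := (WeakGrad.wpd hW i).ibp g hg hgs
    have e3 : ∫ x, v x * pd i g x = ∫ x, u x * pd i g x := by
      refine integral_congr_ae (hvu.mono fun x hx => ?_)
      by_cases hxS : x ∈ S
      · have : x ∉ tsupport g := fun h => hgO h hxS
        simp only [(pd_congr (notMem_tsupport_iff_eventuallyEq.1 this)).trans (pd_const 0), mul_zero]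
      · simp only [hx hxS]
    have i1 : Integrable fun x => H x i * g x :=
      (WeakGrad.wpd hV i).locg.integrable_smul_right_of_hasCompactSupport hg.continuous hgs
    have i2 : Integrable fun x => G x i * g x :=
      (WeakGrad.wpd hW i).locg.integrable_smul_right_of_hasCompactSupport hg.continuous hgs
    calc ∫ x, g x • (H x i - G x i) = ∫ x, (H x i * g x - G x i * g x) :=
          integral_congr_ae (Eventually.of_forall fun x => by simp [smul_eq_mul]; ring)
      _ = 0 := by rw [integral_sub i1 i2]; linarith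
  have hcut : ∀ δ : ℝ, 0 < δ → ∀ t, cut δ t ≤ {s : ℝ | 0 < s}.indicator (fun _ => (1 : ℝ)) t := by
    intro δ hδ t
    by_cases ht : 0 < t
    · simp [ht, cut_le_one]
    · rw [Set.indicator_of_notMem (show t ∉ {s : ℝ | 0 < s} from ht), cut,
        Real.smoothTransition.zero_of_nonpos
          (div_nonpos_of_nonpos_of_nonneg (le_of_not_gt ht) hδ.le)]
  have main : ∀ δ : ℝ, 0 < δ → 2 * ∫ x in ball c R, cut δ (u x) * m x ≤ bernoulli v H c R := by
    intro δ hδ
    have hK : ∀ t, |deriv (prim δ) t| ≤ 1 := fun t => by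
      rw [deriv_prim, abs_of_nonneg (cut_nonneg _ _)]; exact cut_le_one _ _
    have hsm : ∀ (f : Pt d → ℝ) (F : Pt d → Pt d), WeakGrad f F → ∀ i : Fin d,
        Integrable fun x => cut δ (f x) * F x i * b x := fun f F hF i => by
      refine ((WeakGrad.wpd hF i).locg.integrable_smul_right_of_hasCompactSupport b.continuous
        b.hasCompactSupport).norm.mono'
        (((contDiff_cut.continuous.comp_aestronglyMeasurable (WeakGrad.aesm hF).1).mul
          (WeakGrad.wpd hF i).locg.aestronglyMeasurable).mul b.continuous.aestronglyMeasurable)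
        (Eventually.of_forall fun x => ?_)
      simp only [Real.norm_eq_abs, smul_eq_mul, abs_mul, abs_of_nonneg (cut_nonneg δ (f x))]
      calc cut δ (f x) * |F x i| * |b x| ≤ 1 * |F x i| * |b x| := by
            gcongr; exact cut_le_one _ _
        _ = _ := by ring
    have heq : ∀ i : Fin d, ∫ x in ball c R, cut δ (v x) * H x i =
        ∫ x in ball c R, cut δ (u x) * G x i := fun i => by
      have e1 := (WeakGrad.wpd hV i).chain (contDiff_prim δ) hK b.contDiff b.hasCompactSupport
      have e2 := (WeakGrad.wpd hW i).chain (contDiff_prim δ) hK b.contDiff b.hasCompactSupport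
      rw [deriv_prim] at e1 e2
      have e3 : ∫ x, prim δ (v x) * pd i b x = ∫ x, prim δ (u x) * pd i b x := by
        refine integral_congr_ae (hvu.mono fun x hx => ?_)
        by_cases hxS : x ∈ S
        · have : (b : Pt d → ℝ) =ᶠ[𝓝 x] fun _ => (1 : ℝ) :=
            eventually_of_mem (isOpen_ball.mem_nhds (hSB hxS)) hbB
          simp only [(pd_congr this).trans (pd_const 1), mul_zero]
        · simp only [hx hxS]
      have e4 : ∫ x, cut δ (v x) * H x i * b x - cut δ (u x) * G x i * b x = 0 := by
        rw [integral_sub (hsm v H hV i) (hsm u G hW i)]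
        linarith
      have e5 : ∫ x in ball c R, cut δ (v x) * H x i * b x - cut δ (u x) * G x i * b x = 0 := by
        rw [← e4]
        refine setIntegral_eq_integral_of_ae_compl_eq_zero ?_
        filter_upwards [hvu, hHG i] with x h1 h2 hxB
        have hxS : x ∉ S := fun h => hxB (hSB h)
        rw [h1 hxS, sub_eq_zero.1 (h2 hxS), sub_self]
      rw [integral_sub (hsm v H hV i).integrableOn (hsm u G hW i).integrableOn, sub_eq_zero] at e5
      have hb : ∀ f : Pt d → ℝ, ∫ x in ball c R, f x * b x = ∫ x in ball c R, f x := fun f =>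
        setIntegral_congr_fun measurableSet_ball fun x hx => by simp [hbB x hx]
      rwa [hb, hb] at e5
    have hint : ∀ (f : Pt d → ℝ) (F : Pt d → Pt d), WeakGrad f F → ∀ i : Fin d,
        IntegrableOn (fun x => cut δ (f x) * F x i * e i) (ball c R) := fun f F hF i =>
      (((hsm f F hF i).integrableOn).congr_fun
        (fun x hx => show _ = cut δ (f x) * F x i by simp [hbB x hx]) measurableSet_ball).mul_const _
    have hsum : ∀ (f : Pt d → ℝ) (F : Pt d → Pt d), WeakGrad f F →
        ∫ x in ball c R, cut δ (f x) * ∑ i, F x i * e i =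
          ∑ i, (∫ x in ball c R, cut δ (f x) * F x i) * e i := fun f F hF => by
      simp only [Finset.mul_sum, ← mul_assoc]
      rw [integral_finset_sum _ fun i _ => hint f F hF i]
      exact Finset.sum_congr rfl fun i _ => integral_mul_const _ _
    have hGm : ∫ x in ball c R, cut δ (u x) * ∑ i, G x i * e i =
        ∫ x in ball c R, cut δ (u x) * m x := by
      refine integral_congr_ae (ae_restrict_of_ae (hGe.mono fun x hx => ?_))
      by_cases hx0 : 0 < u x
      · simp only [hx, hm, Set.indicator_of_mem (show x ∈ {y | 0 < u y} from hx0)]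
        rw [← hee]
        simp [sq]
      · simp [hx, hm, hx0]
    rw [← hGm, hsum u G hW, ← Finset.sum_congr rfl fun i _ => congrArg (· * e i) (heq i),
      ← hsum v H hV, ← integral_const_mul, bernoulli]
    have hsq : IntegrableOn (fun x => ‖H x‖ ^ 2) (ball c R) := by
      obtain ⟨T, hT⟩ : ∃ T, ball c R ⊆ ball (0 : Pt d) T :=
        (Metric.isBounded_ball).subset_ball 0
      exact IntegrableOn.mono_set ((memLp_two_iff_integrable_sq_norm (hV.1 T).2.1).1 (hV.1 T).2) hT
    refine integral_mono_ae ?_ ?_ (ae_restrict_of_ae (Eventually.of_forall fun x => ?_))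
    · have := integrable_finset_sum (μ := volume.restrict (ball c R)) Finset.univ
        fun i _ => hint v H hV i
      simpa [Finset.mul_sum, ← mul_assoc] using this.const_mul 2
    · exact hsq.add (Integrable.indicator₀ (integrable_const _)
        ((nullMeasurableSet_lt aemeasurable_const hvae.aemeasurable).mono_ac
          Measure.absolutelyContinuous_restrict))
    · have hin : ∑ i, H x i * e i = inner ℝ (H x) e := by simp [PiLp.inner_apply, mul_comm]
      have hcs : ∑ i, H x i * e i ≤ ‖H x‖ := by
        rw [hin]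
        exact (real_inner_le_norm _ _).trans_eq (by rw [he, mul_one])
      have h1 := hcut δ hδ (v x)
      have h2 := cut_nonneg δ (v x)
      have h3 : {y | 0 < v y}.indicator (fun _ => (1 : ℝ)) x =
          {s : ℝ | 0 < s}.indicator (fun _ => (1 : ℝ)) (v x) := rfl
      beta_reduce
      rw [h3]
      nlinarith [mul_le_mul_of_nonneg_left hcs h2, sq_nonneg (‖H x‖ - cut δ (v x)),
        cut_le_one δ (v x), norm_nonneg (H x)]
  have hlim : Tendsto (fun n : ℕ => 2 * ∫ x in ball c R, cut (1 / ((n : ℝ) + 1)) (u x) * m x) atTop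
      (𝓝 (2 * ∫ x in ball c R, m x)) := by
    refine (tendsto_integral_of_dominated_convergence (fun _ => (1 : ℝ)) (fun n => ?_)
      (integrable_const _) (fun n => Eventually.of_forall fun x => ?_)
      (Eventually.of_forall fun x => ?_)).const_mul 2
    · exact ((contDiff_cut.continuous.comp huc).measurable.mul hmm).aestronglyMeasurable
    · rw [Real.norm_eq_abs, abs_mul, abs_of_nonneg (cut_nonneg _ _)]
      refine mul_le_one₀ (cut_le_one _ _) (abs_nonneg _) ?_
      rw [hm]
      by_cases hx : 0 < u x <;> simp [hx]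
    · by_cases hx : 0 < u x
      · obtain ⟨N, hN⟩ := exists_nat_one_div_lt hx
        refine tendsto_const_nhds.congr' ((eventually_ge_atTop N).mono fun n hn => ?_)
        have : (1 : ℝ) / ((n : ℝ) + 1) ≤ u x := le_trans (by gcongr) hN.le
        have h1 : cut (1 / ((n : ℝ) + 1)) (u x) = 1 :=
          Real.smoothTransition.one_of_one_le (by rwa [le_div_iff₀ (by positivity), one_mul])
        beta_reduce
        rw [h1, one_mul]
      · simp [hm, hx]
  have hu2 : bernoulli u G c R = 2 * ∫ x in ball c R, m x := by
    rw [← integral_const_mul, bernoulli]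
    refine integral_congr_ae (ae_restrict_of_ae (hGe.mono fun x hx => ?_))
    by_cases hx0 : 0 < u x
    · simp only [hx, hm, Set.indicator_of_mem (show x ∈ {y | 0 < u y} from hx0), he]
      norm_num
    · simp [hx, hm, hx0]
  rw [hu2]
  exact le_of_tendsto hlim (Eventually.of_forall fun n => main _ (by positivity))

end Vale.Agent.P098.Reg
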