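import Vale.Agent.P098.Reg.Iface
import Vale.Agent.P098.Reg.Scale

/-!
The top of the regularity chain: the module propositions compose to the target.
-/

noncomputable section

namespace Vale.Agent.P098.Reg

open MeasureTheory Set Filter Topology Metric
open scoped ContDiff

variable {d : ℕ}

/-- Flat points give a `C^{1,α}` free boundary. -/
theorem c1Boundary_of_flat (hD : EpsReg d) {u : Pt d → ℝ} (hu : LMin u)
    (hflat : ∀ x0 ∈ free u, x0 ≠ 0 → ∀ ε > 0, ∃ r > 0, ∃ ν : Pt d, ‖ν‖ = 1 ∧ Trapped u x0 r ε ν) :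
    C1Boundary u := by
  obtain ⟨α, hα, hα1, ε0, hε0, C, hC, hD⟩ := hD
  intro x0 hx0 hne
  set ε := min ε0 (1 / (4 * C)) with hεdef
  have hε : 0 < ε := lt_min hε0 (by positivity)
  obtain ⟨ρ, hρ, ν, hν, htr⟩ := hflat x0 hx0 hne ε hε
  obtain ⟨hA, hB⟩ := hD (rescale u x0 ρ) ν ε (hu.rescale x0 hρ) hν hε (min_le_left _ _)
    ((trapped_rescale hρ).2 (by simpa using htr))
  refine ⟨ρ / 4, by positivity, α, hα, hα1, C * ε * (ρ⁻¹) ^ α, ν, hν, fun x hx hxb => ?_,
    fun x hxb hx => ⟨?_, fun y hyb hy => ?_⟩⟩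
  · obtain ⟨y, rfl⟩ : ∃ y, x = x0 + ρ • y :=
      ⟨ρ⁻¹ • (x - x0), by rw [smul_inv_smul₀ hρ.ne']; abel⟩
    obtain ⟨νx, hνx, h⟩ := hA y ((mem_free_rescale hρ).2 hx) (by
      rw [mem_ball, dist_zero_right]
      rw [mem_ball, dist_eq_norm, add_sub_cancel_left, norm_smul, Real.norm_eq_abs,
        abs_of_pos hρ] at hxb
      nlinarith)
    refine ⟨νx, hνx, fun s hs hsr => ?_⟩
    have h' := (trapped_rescale hρ).1 (h (s / ρ) (div_pos hs hρ) (by
      rw [div_le_iff₀ hρ]; linarith))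
    rw [mul_div_cancel₀ _ hρ.ne', div_eq_inv_mul,
      Real.mul_rpow (inv_nonneg.2 hρ.le) hs.le] at h'
    simpa [mul_assoc] using h'
  all_goals
    have key : ∀ z : Pt d, z ∈ ball x0 (ρ / 4) → 0 < u z →
        ρ⁻¹ • (z - x0) ∈ ball (0 : Pt d) (1 / 4) ∧ 0 < rescale u x0 ρ (ρ⁻¹ • (z - x0)) ∧
          fderiv ℝ (rescale u x0 ρ) (ρ⁻¹ • (z - x0)) = fderiv ℝ u z := fun z hz hpos => by
      have e : x0 + ρ • ρ⁻¹ • (z - x0) = z := by rw [smul_inv_smul₀ hρ.ne']; abel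
      refine ⟨?_, (rescale_pos_iff hρ).2 (by rwa [e]), by rw [fderiv_rescale hρ, e]⟩
      rw [mem_ball, dist_zero_right, norm_smul, norm_inv, Real.norm_eq_abs, abs_of_pos hρ,
        inv_mul_lt_iff₀ hρ]
      rw [mem_ball, dist_eq_norm] at hz
      linarith
    obtain ⟨h1, h2, h3⟩ := key x hxb hx
  · have := (hB _ h1 h2).1
    rw [h3] at this
    refine this.trans ?_
    calc C * ε ≤ C * (1 / (4 * C)) := mul_le_mul_of_nonneg_left (min_le_right _ _) hC.le
      _ = 1 / 4 := by field_simp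
  · obtain ⟨k1, k2, k3⟩ := key y hyb hy
    have := (hB _ h1 h2).2 _ k1 k2
    rw [h3, k3, dist_smul₀, dist_sub_right, norm_inv, Real.norm_eq_abs, abs_of_pos hρ,
      Real.mul_rpow (inv_nonneg.2 hρ.le) dist_nonneg] at this
    simpa [mul_assoc] using this

/-- The induction on the dimension. -/
theorem flatDim_of (N : ℕ) (hlow : LowDim) (hC : ∀ d, DimRed d) (hD : ∀ d, EpsReg d)
    (hE : ∀ d, HighReg d) (hbridge : ∀ d, CertFlat d) (hF : ∀ d, 3 ≤ d → d ≤ N → Nonempty (Cert d)) :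
    ∀ d, 1 ≤ d → d ≤ N → FlatDim d := by
  intro d
  induction d with
  | zero => intro h; omega
  | succ d ih =>
    intro _ hdN
    rcases (show d = 0 ∨ d = 1 ∨ 2 ≤ d by omega) with rfl | rfl | hd
    · exact hlow.1
    · exact hlow.2
    · intro u hu hh
      obtain ⟨Γ⟩ := hF (d + 1) (by omega) hdN
      have hflat := hC d (by omega) (ih (by omega) (by omega)) u hu hh
      exact hbridge _ Γ u hu hh (hE _ u hu hh (c1Boundary_of_flat (hD _) hu hflat))

/-- The top theorem: the module propositions give the answer in every dimension up to `N`. -/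
theorem target_of (N : ℕ) (hB : ∀ d, 1 ≤ d → FirstReg d) (hlow : LowDim) (hC : ∀ d, DimRed d)
    (hD : ∀ d, EpsReg d) (hE : ∀ d, HighReg d) (hbridge : ∀ d, CertFlat d)
    (hF : ∀ d, 3 ≤ d → d ≤ N → Nonempty (Cert d)) :
    ∀ d, 1 ≤ d → d ≤ N → Target d := by
  intro d hd hdN u hu hh
  obtain ⟨w, hw, hm, hhom⟩ := hB d hd u hu hh
  rcases flatDim_of N hlow hC hD hE hbridge hF d hd hdN w hm hhom with h | ⟨e, he, h⟩
  · left; rwa [h] at hw
  · right; exact ⟨e, he, h ▸ hw⟩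

end Vale.Agent.P098.Reg
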